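import Vale.Agent.P365.T2.H16.Sum16
import Vale.Agent.P365.T2.XDefs629

/-!
# P365 T2 / H16 / CXLow16: lower bound of the averaged excess over a stage (centre route)

`OneCAll` = the one-site inequality of the centre route for all truncated fields;
`cxLow_of` = 216's `CXLow` (lower bound of `Av CXS`), literally.
-/

set_option linter.all false

namespace P365T2.H16S

open Vale.Agent.P365.J376 P365L P365O P365T1 P365L.TL Matrix Complex MeasureTheory Filter Set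
open P365L.T2.Path
open P365T2.H844 P365T2.Coll863 P365T2.H320U P365T2.H213 P365T2.X629 P365T1.Conc
open P365T2.H37 (wk Hc rho)
open scoped ComplexConjugate ENNReal

/-- **the one-site inequality for all truncated fields** -/
def OneCAll (lam E : ℝ) : Prop :=
  ∃ C0 : ℝ, 0 ≤ C0 ∧ ∀ T : ℝ, 1 ≤ T → ∃ C1 : ℝ, 0 ≤ C1 ∧
    ∀ (N : ℕ) [NeZero N] (J : ℕ), 1 ≤ J →
      OneC (PhiR N J) (AT N) E T J (nuS lam (lam * tau0 / 2)) C0 C1

theorem PhiR_eq_fam (N : ℕ) [NeZero N] (J : ℕ) : PhiR N J = fam (fR N J) := rfl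

theorem one_le_nJ {C1 S : ℝ} : 1 ≤ nJ C1 S := by
  unfold nJ
  omega

/-- **(SUM) over a stage** -/
theorem cxLow_of {lam E C1 : ℝ} (h : OneCAll lam E) :
    ∃ C0 : ℝ, 0 ≤ C0 ∧ ∀ T : ℝ, 1 ≤ T → ∃ C2 : ℝ, 0 ≤ C2 ∧ ∀ (N : ℕ) [NeZero N] (W : StW N),
      W.Ok lam E C1 1 → ∀ τ ∈ Icc 0 W.S,
        -(C0 * W.Phi E (fR N (nJ C1 W.S)) τ +
          C2 * (W.S ^ 5 * ∑ k ∈ Finset.range (nJ C1 W.S + 3),
            W.Yg E (kf (fR N (nJ C1 W.S)) (nJ C1 W.S) k) τ)) ≤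
        W.Av E τ fun l V => CXS (PhiR N (nJ C1 W.S)) (AT N) (Real.exp (-T)) (nJ C1 W.S)
          (fun x => wT W.w τ l x / eT W.u W.w τ l x) V := by
  obtain ⟨C0, hC0, h⟩ := h
  refine ⟨6 * C0, by positivity, fun T hT => ?_⟩
  obtain ⟨C3, hC3, h⟩ := h T hT
  refine ⟨4 * C3 + 2 * C0 * (T + 2) ^ 2 * ((lam + |E|) ^ 2 + 2), by positivity,
    fun N _ W hW τ hτ => ?_⟩
  haveI := hW.prob
  obtain ⟨b, hb, hub⟩ := hW.u_pos
  have hu : ∀ l x, 0 < W.u l x := fun l x => hb.trans_le (hub l x)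
  set J := nJ C1 W.S with hJ
  have hJ1 : 1 ≤ J := one_le_nJ
  have hS1 : 1 ≤ W.S := by
    have := hW.S_ge
    rwa [div_one] at this
  have h1 := cx_avg (A := AT N) (E := E) (p := W.p) (ν := W.ν) (AT_symm N) hW.p_nonneg hW.supp hu
    hW.w_nonneg hW.e_le (T := T) (by linarith) (J := J) (fR N J) (fun x y => by
      have := ttR_le (J := J) x y
      rw [ttR_eq] at this
      rw [fR_spec]
      exact this) hC0 hC3 (fun l y hy => by
        rw [hW.mov l y hy]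
        exact h N J hJ1) (τ := τ) hτ.1
  refine le_trans (neg_le_neg ?_) h1
  have hY0 : ∀ k, 0 ≤ W.Yg E (kf (fR N J) J k) τ := fun k =>
    YG_nonneg hW.p_nonneg (eT_pos' hu hW.w_nonneg τ)
      (fun l x => mul_nonneg (Real.exp_pos _).le (hW.w_nonneg l x))
  have h2 : ∑ k ∈ Finset.range (J + 2), W.Yg E (kf (fR N J) J (k + 1)) τ ≤
      W.S ^ 5 * ∑ k ∈ Finset.range (J + 3), W.Yg E (kf (fR N J) J k) τ := by
    have h3 : ∑ k ∈ Finset.range (J + 2), W.Yg E (kf (fR N J) J (k + 1)) τ ≤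
        ∑ k ∈ Finset.range (J + 3), W.Yg E (kf (fR N J) J k) τ := by
      rw [Finset.sum_range_succ' _ (J + 2)]
      linarith [hY0 0]
    have h4 : 0 ≤ ∑ k ∈ Finset.range (J + 3), W.Yg E (kf (fR N J) J k) τ :=
      Finset.sum_nonneg fun k _ => hY0 k
    have h5 : (1 : ℝ) ≤ W.S ^ 5 := one_le_pow₀ hS1
    nlinarith
  exact add_le_add le_rfl (mul_le_mul_of_nonneg_left h2 (by positivity))

end P365T2.H16S
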