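import Vale.Agent.P365.T2.C0844
import Vale.Agent.P365.T2.H320.UAvg
import Vale.Agent.P365.T2.H320.UHub
import Vale.Agent.P365.T2.CollYf863

/-!
# P365 T2 / H16 / Sum16: the entropy flow from the one-site inequality of the centre route

`OneC` = 37's one-site inequality (note 20341 (4)); `flow_of_one` = the derivative inequality of
`Av UpsG` over labels and potentials.
-/

set_option linter.all false

namespace P365T2.H16S

open Vale.Agent.P365.J376 P365L P365O P365T1 P365L.TL Matrix Complex MeasureTheory Filter Set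
open P365L.T2.Path
open P365T2.H844 P365T2.Coll863 P365T2.H320U
open P365T2.H37 (wk Hc rho)
open scoped ComplexConjugate ENNReal

/-! ### the three functionals -/

section defs

variable {V : Type*} [NormedAddCommGroup V] [InnerProductSpace ℝ V]
variable {ι : Type*} [Fintype ι] [DecidableEq ι] (Φ : ι → V) (A : Matrix ι ι ℝ)

/-- content at the scale `k`, site `y` -/
noncomputable def CntK (J k : ℕ) (y : ι) (W : ι → ℂ) : ℝ :=
  ∑ x, TT A W x y * (Pw Φ (TT A W) J k y x + Pw Φ (TT A W) J k x x)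

/-- off-resonant content at the scale `k`, site `y` -/
noncomputable def YrK (J k : ℕ) (y : ι) (W : ι → ℂ) : ℝ :=
  (-(W y).im) * (∑ x, (-(W x).im) * ‖gw A W y x‖ ^ 2 * Pw Φ (TT A W) J k y x) /
    (1 + ‖sg A W y‖ ^ 2)

/-- collective term at the scale `k`, site `y`, with the actual multiplier -/
noncomputable def ClK (ε : ℝ) (J k : ℕ) (y : ι) (W : ι → ℂ) : ℝ :=
  (-(W y).im) * (kp A W y * ‖Ly A W (fun x u => wk J k (tt Φ x u))
    (fun x => Real.log (ur Φ (TT A W) J k x + ε)) y‖)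

/-- **one-site inequality of the centre route** -/
def OneC (E T : ℝ) (J : ℕ) (μ : Measure ℝ) (C0 C1 : ℝ) : Prop :=
  ∀ (e v : ι → ℝ) (y : ι) (k : ℕ), (∀ x, 0 < e x) → (∀ x, e x ≤ 1) → k < J + 2 →
    -(∫ t, (C0 * CntK Φ A J k y (WV E e (Function.update v y t)) +
        C1 * YrK Φ A J k y (WV E e (Function.update v y t)) +
        C0 * ClK Φ A (Real.exp (-T)) J k y (WV E e (Function.update v y t))) ∂μ) ≤
      ∫ t, 2 * ((-(WV E e (Function.update v y t) y).im) *
        mm A (WV E e (Function.update v y t)) y) *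
        ∑ x, CX A (WV E e (Function.update v y t)) Φ (Real.exp (-T)) J k y x ∂μ

end defs

/-! ### smoothness -/

section smooth

variable {V : Type*} [NormedAddCommGroup V] [InnerProductSpace ℝ V]
variable {ι : Type*} [Fintype ι] [DecidableEq ι] {Φ : ι → V} {A : Matrix ι ι ℝ} {n : WithTop ℕ∞}

theorem contDiffOn_log_ur (hA : A.IsSymm) (J k : ℕ) (x : ι) {ε : ℝ} (hε : 0 < ε) :
    ContDiffOn ℝ n (fun W : ι → ℂ => Real.log (ur Φ (TT A W) J k x + ε)) (LH ι) :=
  (contDiffOn_ur_add hA J k x ε).log fun W hW => ur_add_ne hA hW J k x hε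

theorem contDiffOn_Gg (hA : A.IsSymm) (J k : ℕ) (x : ι) {ε : ℝ} (hε : 0 < ε) :
    ContDiffOn ℝ n (fun W : ι → ℂ => Gg ε (ur Φ (TT A W) J k x)) (LH ι) :=
  (((contDiffOn_ur_add hA J k x ε).mul (contDiffOn_log_ur hA J k x hε)).sub
    (contDiffOn_ur hA J k x)).sub contDiffOn_const

theorem contDiffOn_UpsG (hA : A.IsSymm) (J : ℕ) {ε : ℝ} (hε : 0 < ε) :
    ContDiffOn ℝ n (fun W : ι → ℂ => UpsG Φ A W ε J) (LH ι) :=
  (ContDiffOn.sum fun x _ => ContDiffOn.sum fun k _ =>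
    (contDiffOn_const.mul (contDiffOn_pr hA x)).mul (contDiffOn_Gg hA J k x hε)).neg

theorem contDiffOn_LinU (hA : A.IsSymm) {ε : ℝ} (hε : 0 < ε) (J k : ℕ) (y x : ι) :
    ContDiffOn ℝ n (fun W : ι → ℂ => LinU Φ A W ε J k y x) (LH ι) := by
  unfold LinU
  by_cases h : x = y
  · simp only [if_pos h]
    exact (contDiffOn_const.mul (contDiffOn_pr hA x)).mul ((contDiffOn_Gg hA J k x hε).sub
      (((contDiffOn_TTpr hA x x).mul (contDiffOn_ur hA J k x)).mul
        (contDiffOn_log_ur hA J k x hε)))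
  · simp only [if_neg h]
    exact ((contDiffOn_log_ur hA J k x hε).mul ((contDiffOn_TT hA x y).mul
      ((contDiffOn_Pw hA J k y x).sub contDiffOn_const))).neg

theorem continuousOn_dUG (hA : A.IsSymm) {ε : ℝ} (hε : 0 < ε) (J k : ℕ) (y x : ι) :
    ContinuousOn (fun W : ι → ℂ => dUG A W Φ ε J k y x) (LH ι) := by
  obtain ⟨ll, h⟩ := gen_upsG (Φ := Φ) hA hε J k y x
  exact h.ce

theorem contDiffOn_CntK (hA : A.IsSymm) (J k : ℕ) (y : ι) :
    ContDiffOn ℝ n (CntK Φ A J k y) (LH ι) :=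
  ContDiffOn.sum fun x _ => (contDiffOn_TT hA x y).mul
    ((contDiffOn_Pw hA J k y x).add (contDiffOn_Pw hA J k x x))

theorem contDiffOn_YrK (hA : A.IsSymm) (J k : ℕ) (y : ι) :
    ContDiffOn ℝ n (YrK Φ A J k y) (LH ι) :=
  ((contDiff_e y).contDiffOn.mul (ContDiffOn.sum fun x _ => ((contDiff_e x).contDiffOn.mul
    ((contDiffOn_gw hA y x).norm_sq ℝ)).mul (contDiffOn_Pw hA J k y x))).div
    (contDiffOn_const.add ((contDiffOn_sg hA y).norm_sq ℝ)) fun W _ => by positivity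

theorem continuousOn_ClK (hA : A.IsSymm) {ε : ℝ} (hε : 0 < ε) (J k : ℕ) (y : ι) :
    ContinuousOn (ClK Φ A ε J k y) (LH ι) := by
  have h1 : ContinuousOn (fun W : ι → ℂ => -(W y).im) (LH ι) :=
    (contDiff_e (n := 0) y).contDiffOn.continuousOn
  have hs : ContDiffOn ℝ 0 (fun W : ι → ℂ => sg A W y) (LH ι) := contDiffOn_sg hA y
  have h2 : ContinuousOn (fun W : ι → ℂ => kp A W y) (LH ι) := by
    have h3 : ContDiffOn ℝ 0 (fun W : ι → ℂ => ‖W y - sg A W y‖ ^ 2 / (1 + ‖sg A W y‖ ^ 2))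
        (LH ι) :=
      ((((contDiff_apply ℝ ℂ y).contDiffOn).sub hs).norm_sq ℝ).div
        (contDiffOn_const.add (hs.norm_sq ℝ)) fun W _ => by positivity
    exact h3.continuousOn
  have hG : ∀ a b, ContinuousOn (fun W : ι → ℂ => Gr A W a b) (LH ι) := fun a b =>
    (contDiffOn_Gr (n := 0) hA a b).continuousOn
  have h3 : ContinuousOn (fun W : ι → ℂ => Ly A W (fun x u => wk J k (tt Φ x u))
      (fun x => Real.log (ur Φ (TT A W) J k x + ε)) y) (LH ι) := by
    unfold Ly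
    refine continuousOn_finset_sum _ fun x _ => continuousOn_finset_sum _ fun u _ => ?_
    have e1 : ContinuousOn (fun W : ι → ℂ =>
        ((Real.log (ur Φ (TT A W) J k x + ε) : ℝ) : ℂ)) (LH ι) :=
      Complex.continuous_ofReal.comp_continuousOn
        (contDiffOn_log_ur (n := 0) hA J k x hε).continuousOn
    have e2 : ContinuousOn (fun W : ι → ℂ =>
        ((ab W x * ab W u * wk J k (tt Φ x u) : ℝ) : ℂ)) (LH ι) := by
      refine Complex.continuous_ofReal.comp_continuousOn ?_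
      exact (((contDiff_e (n := 0) x).contDiffOn.continuousOn).mul
        ((contDiff_e (n := 0) u).contDiffOn.continuousOn)).mul continuousOn_const
    exact ((e1.mul e2).mul (Complex.continuous_conj.comp_continuousOn (hG x u))).mul
      ((hG x y).mul (hG y u))
  exact h1.mul (h2.mul h3.norm)

end smooth

/-! ### pointwise bounds -/

section point

variable {V : Type*} [NormedAddCommGroup V] [InnerProductSpace ℝ V]
variable {ι : Type*} [Fintype ι] [DecidableEq ι] {Φ : ι → V} {A : Matrix ι ι ℝ} {W : ι → ℂ}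

/-- **content**: sum over the sites and the scales -/
theorem sum_CntK_le (hA : A.IsSymm) (hW : ∀ x, (W x).im < 0) (J : ℕ) {om : ι → ℝ}
    (ho : ∀ x, 0 ≤ om x) (ho1 : ∀ x, om x ≤ 1) :
    ∑ y, om y * ∑ k ∈ Finset.range (J + 2), CntK Φ A J k y W ≤
      5 * ∑ v, pr (TT A W) v * Vr Φ (TT A W) v := by
  have hQ0 : ∀ x y, 0 ≤ TT A W x y := TT_nonneg hW
  have hs : ∀ x y, TT A W x y = TT A W y x := TT_symm hA
  have hp : ∀ x, 0 < pr (TT A W) x := pr_TT_pos hA hW
  have h2 := two_step (Φ := Φ) (J := J) hQ0 hs hp ho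
  have hV : ∀ v, 0 ≤ Vr Φ (TT A W) v := Vr_nonneg hQ0 hp
  have h4 : ∑ v, om v * pr (TT A W) v * Vr Φ (TT A W) v ≤
      ∑ v, pr (TT A W) v * Vr Φ (TT A W) v := by
    refine Finset.sum_le_sum fun v _ => ?_
    refine mul_le_mul_of_nonneg_right ?_ (hV v)
    exact mul_le_of_le_one_left (hp v).le (ho1 v)
  have e1 : ∑ y, om y * ∑ k ∈ Finset.range (J + 2), CntK Φ A J k y W =
      ∑ k ∈ Finset.range (J + 2), ∑ x, ∑ y, om y * TT A W x y * Pw Φ (TT A W) J k y x +
      ∑ x, ∑ y, om y * TT A W x y * ∑ k ∈ Finset.range (J + 2), Pw Φ (TT A W) J k x x := by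
    unfold CntK
    simp only [Finset.mul_sum, mul_add, Finset.sum_add_distrib]
    congr 1
    · rw [Finset.sum_comm]
      refine Finset.sum_congr rfl fun k _ => ?_
      rw [Finset.sum_comm]
      exact Finset.sum_congr rfl fun x _ => Finset.sum_congr rfl fun y _ => by ring
    · rw [Finset.sum_comm]
      rw [Finset.sum_congr rfl fun k (_ : k ∈ Finset.range (J + 2)) => Finset.sum_comm]
      rw [Finset.sum_comm]
      refine Finset.sum_congr rfl fun x _ => ?_
      rw [Finset.sum_comm]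
      exact Finset.sum_congr rfl fun y _ => Finset.sum_congr rfl fun k _ => by ring
  rw [e1]
  have h5 : ∑ x, ∑ y, om y * TT A W x y * ∑ k ∈ Finset.range (J + 2), Pw Φ (TT A W) J k x x ≤
      ∑ v, pr (TT A W) v * Vr Φ (TT A W) v := by
    refine Finset.sum_le_sum fun x _ => ?_
    rw [sum_Pw_self, ← Finset.sum_mul]
    refine mul_le_mul_of_nonneg_right ?_ (hV x)
    exact Finset.sum_le_sum fun y _ => mul_le_of_le_one_left (hQ0 x y) (ho1 y)
  linarith

/-- `P_y(z) = e_z |c_z|² / Γ_y` -/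
theorem TT_div_pr (hA : A.IsSymm) (hW : ∀ x, (W x).im < 0) (y z : ι) :
    TT A W y z / pr (TT A W) y = (-(W z).im) * ‖gw A W y z‖ ^ 2 / Sf A W y := by
  have h1 := Sf_pos hA hW y
  have h2 : 0 < ‖Gr A W y y‖ := norm_pos_iff.2 (Gr_self_ne_zero hA hW y)
  have h3 : (W y).im ≠ 0 := (hW y).ne
  rw [pr_TT hA hW, mm_eq_Sf hA hW]
  unfold TT KK
  rw [Gr_eq_gw' hA hW y z, norm_mul]
  field_simp

/-- **off-resonant content**, any kernel dominated by a family -/
theorem YrK_le {κ : Type*} [Fintype κ] (hA : A.IsSymm) (hW : ∀ x, (W x).im < 0) {J k : ℕ}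
    (F : κ → ι → ℝ) (hF : ∀ x z, wk J k (tt Φ x z) ≤ ∑ j, (F j x - F j z) ^ 2) (y : ι) :
    YrK Φ A J k y W ≤ 4 * ((-(W y).im) * ∑ j, Yf A W (F j) y) := by
  have hS := Sf_pos hA hW y
  have he : ∀ x, 0 < -(W x).im := fun x => neg_pos.2 (hW x)
  have hg : ∀ x, 0 ≤ (-(W x).im) * ‖gw A W y x‖ ^ 2 := fun x =>
    mul_nonneg (he x).le (sq_nonneg _)
  obtain ⟨h, hd⟩ : ∃ h : ι → ℝ, h = fun x => ∑ j, (F j x - F j y) ^ 2 := ⟨_, rfl⟩
  have hh : ∀ x, h x = ∑ j, (F j x - F j y) ^ 2 := fun x => by rw [hd]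
  have htri : ∀ x z, wk J k (tt Φ x z) ≤ 2 * h x + 2 * h z := by
    intro x z
    refine (hF x z).trans ?_
    rw [hh, hh, Finset.mul_sum, Finset.mul_sum, ← Finset.sum_add_distrib]
    refine Finset.sum_le_sum fun j _ => ?_
    nlinarith [sq_nonneg ((F j x - F j y) + (F j z - F j y))]
  have hSf : ∑ z, (-(W z).im) * ‖gw A W y z‖ ^ 2 = Sf A W y := rfl
  have h1 : ∀ x, Pw Φ (TT A W) J k y x ≤
      2 * h x + 2 * ((∑ z, (-(W z).im) * ‖gw A W y z‖ ^ 2 * h z) / Sf A W y) := by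
    intro x
    unfold Pw
    have h2 : ∀ z, TT A W y z / pr (TT A W) y * wk J k (tt Φ x z) ≤
        (-(W z).im) * ‖gw A W y z‖ ^ 2 / Sf A W y * (2 * h x + 2 * h z) := by
      intro z
      rw [TT_div_pr hA hW]
      exact mul_le_mul_of_nonneg_left (htri x z) (div_nonneg (hg z) hS.le)
    refine (Finset.sum_le_sum fun z _ => h2 z).trans (le_of_eq ?_)
    have e1 : ∀ z, (-(W z).im) * ‖gw A W y z‖ ^ 2 / Sf A W y * (2 * h x + 2 * h z) =
        (2 * h x / Sf A W y) * ((-(W z).im) * ‖gw A W y z‖ ^ 2) +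
        (2 / Sf A W y) * ((-(W z).im) * ‖gw A W y z‖ ^ 2 * h z) := fun z => by
      field_simp
      ring
    rw [Finset.sum_congr rfl fun z _ => e1 z, Finset.sum_add_distrib, ← Finset.mul_sum,
      ← Finset.mul_sum, hSf]
    field_simp
  have h3 : ∑ x, (-(W x).im) * ‖gw A W y x‖ ^ 2 * Pw Φ (TT A W) J k y x ≤
      4 * ∑ j, Nf A W (F j) y := by
    have h4 : ∑ x, (-(W x).im) * ‖gw A W y x‖ ^ 2 * Pw Φ (TT A W) J k y x ≤
        ∑ x, (-(W x).im) * ‖gw A W y x‖ ^ 2 *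
          (2 * h x + 2 * ((∑ z, (-(W z).im) * ‖gw A W y z‖ ^ 2 * h z) / Sf A W y)) :=
      Finset.sum_le_sum fun x _ => mul_le_mul_of_nonneg_left (h1 x) (hg x)
    refine h4.trans (le_of_eq ?_)
    have hN : ∑ j, Nf A W (F j) y = ∑ x, (-(W x).im) * ‖gw A W y x‖ ^ 2 * h x := by
      unfold Nf
      rw [Finset.sum_comm]
      refine Finset.sum_congr rfl fun x _ => ?_
      rw [hh, Finset.mul_sum]
    rw [hN]
    have e2 : ∀ x, (-(W x).im) * ‖gw A W y x‖ ^ 2 *
        (2 * h x + 2 * ((∑ z, (-(W z).im) * ‖gw A W y z‖ ^ 2 * h z) / Sf A W y)) =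
        2 * ((-(W x).im) * ‖gw A W y x‖ ^ 2 * h x) +
        (2 * ((∑ z, (-(W z).im) * ‖gw A W y z‖ ^ 2 * h z) / Sf A W y)) *
          ((-(W x).im) * ‖gw A W y x‖ ^ 2) := fun x => by ring
    rw [Finset.sum_congr rfl fun x _ => e2 x, Finset.sum_add_distrib, ← Finset.mul_sum,
      ← Finset.mul_sum, hSf]
    field_simp
    ring
  unfold YrK
  have e3 : 4 * ((-(W y).im) * ∑ j, Yf A W (F j) y) =
      (-(W y).im) * (4 * ∑ j, Nf A W (F j) y) / (1 + ‖sg A W y‖ ^ 2) := by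
    unfold Yf
    rw [← Finset.sum_div]
    ring
  rw [e3]
  exact div_le_div_of_nonneg_right (mul_le_mul_of_nonneg_left h3 (he y).le) (by positivity)

/-- **collective term**: one scale, sum over the sites -/
theorem sum_ClK_le {κ : Type*} [Fintype κ] (hA : A.IsSymm) (hW : ∀ x, (W x).im < 0) {T : ℝ}
    (hT : 0 ≤ T) {J k : ℕ} (hk : k < J + 2) (ht4 : ∀ x y, tt Φ x y ≤ 4 ^ J) (F : κ → ι → ℝ)
    (hF : ∀ x z, wk J k (tt Φ x z) ≤ ∑ j, (F j x - F j z) ^ 2) {om : ι → ℝ}
    (ho : ∀ x, 0 ≤ om x) (ho1 : ∀ x, om x ≤ 1) {R : ℝ} (hR0 : 0 ≤ R)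
    (hR : ∀ y, om y ≠ 0 → ‖W y‖ ^ 2 ≤ R) :
    ∑ y, om y * ClK Φ A (Real.exp (-T)) J k y W ≤
      ∑ x, pr (TT A W) x * Pw Φ (TT A W) J k x x +
        2 * (T + 2) ^ 2 * (R + 1) * ∑ y, om y * ((-(W y).im) * ∑ j, Yf A W (F j) y) := by
  have hQ0 : ∀ x y, 0 ≤ TT A W x y := TT_nonneg hW
  have hp : ∀ x, 0 < pr (TT A W) x := pr_TT_pos hA hW
  have h1 := coll_Yf hA hW ho ho1 hR0 hR F (w := fun x u => wk J k (tt Φ x u))
    (fun x u => P365T2.H37.wk_nonneg (tt_nonneg x u)) hF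
    (lam := fun x => Real.log (ur Φ (TT A W) J k x + Real.exp (-T))) (T := T + 2)
    (by linarith) (fun x => abs_log_le hT (ur_nonneg hQ0 hp x) (ur_le_three hA hW hk ht4 x))
    (δ := 2 / (T + 2)) (by positivity)
  have hT2 : 0 < T + 2 := by linarith
  have e1 : ∑ x, ∑ u, ab W x * ab W u * wk J k (tt Φ x u) * KK A W x u =
      ∑ x, pr (TT A W) x * Pw Φ (TT A W) J k x x := by
    refine Finset.sum_congr rfl fun x _ => ?_
    unfold Pw
    rw [Finset.mul_sum]
    refine Finset.sum_congr rfl fun u _ => ?_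
    have := (hp x).ne'
    unfold TT ab
    have e2 : pr (TT A W) x * ((-(W x).im) * (-(W u).im) * KK A W x u / pr (TT A W) x *
        wk J k (tt Φ x u)) = (-(W x).im) * (-(W u).im) * KK A W x u * wk J k (tt Φ x u) := by
      field_simp
    have e3 : pr (fun x y => (-(W x).im) * (-(W y).im) * KK A W x y) x = pr (TT A W) x := rfl
    rw [e3] at *
    rw [e2]
    ring
  rw [e1] at h1
  refine le_trans (le_of_eq ?_) (h1.trans (le_of_eq ?_))
  · rfl
  · have e4 : 8 * (R + 1) / (2 / (T + 2)) = 4 * (R + 1) * (T + 2) := by field_simp; ring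
    rw [e4]
    have e5 : ∀ X Y : ℝ, (T + 2) / 2 * (2 / (T + 2) * X + 4 * (R + 1) * (T + 2) * Y) =
        X + 2 * (T + 2) ^ 2 * (R + 1) * Y := by
      intro X Y
      field_simp
      ring
    rw [e5]
    rfl

end point

/-! ### the flow -/

section flow

variable {ι : Type*} [Fintype ι] [DecidableEq ι] {A : Matrix ι ι ℝ}
  {Λ : Type*} [Fintype Λ] {p : Λ → ℝ} {ν : Λ → Measure ℝ} {E : ℝ}
  {κ : Type*} [Fintype κ] {u w : (ι → Λ) → ι → ℝ}

/-- derivative of `UpsG` in the absorption of `y` -/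
theorem dI_UpsG {V : Type*} [NormedAddCommGroup V] [InnerProductSpace ℝ V] {Φ : ι → V}
    (hA : A.IsSymm) {ε : ℝ} (hε : 0 < ε) (J : ℕ) (y : ι) {W : ι → ℂ} (hW : W ∈ LH ι) :
    dI (fun W => UpsG Φ A W ε J) y W =
      -∑ x, ∑ k ∈ Finset.range (J + 2), dUG A W Φ ε J k y x := by
  refine dI_eq (contDiffOn_UpsG hA J hε) hW ?_
  unfold UpsG
  refine HasDerivAt.fun_neg (HasDerivAt.fun_sum fun x _ => HasDerivAt.fun_sum fun k _ => ?_)
  obtain ⟨ll, h⟩ := gen_upsG (Φ := Φ) hA hε J k y x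
  exact h.he W hW

/-- `kf` dominates the kernels of `fam f` -/
theorem wk_le_kf (f : κ → ι → ℝ) (J k : ℕ) (x z : ι) :
    wk J k (tt (fam f) x z) ≤
      ∑ j, (kf f J (k + 1) j x - kf f J (k + 1) j z) ^ 2 := by
  rw [kf_spec]
  have e : dF f x z = tt (fam f) x z := (tt_fam f x z).symm
  rw [e]
  unfold wk
  have := Hc_nonneg J k (tt_nonneg (Φ := fam f) x z)
  linarith

/-- sum over the sites of the excess over the circle means -/
noncomputable def CXS {V : Type*} [NormedAddCommGroup V] [InnerProductSpace ℝ V] (Φ : ι → V)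
    (A : Matrix ι ι ℝ) (ε : ℝ) (J : ℕ) (om : ι → ℝ) (W : ι → ℂ) : ℝ :=
  ∑ z, om z * (2 * ((-(W z).im) * mm A W z) *
    ∑ x, ∑ k ∈ Finset.range (J + 2), CX A W Φ ε J k z x)

/-- excess at one site and one scale, through the derivative and the linear part -/
noncomputable def Xk {V : Type*} [NormedAddCommGroup V] [InnerProductSpace ℝ V] (Φ : ι → V)
    (A : Matrix ι ι ℝ) (ε : ℝ) (J k : ℕ) (y : ι) (W : ι → ℂ) : ℝ :=
  ∑ x, (-(W y).im * dUG A W Φ ε J k y x - LinU Φ A W ε J k y x)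

section X

variable {V : Type*} [NormedAddCommGroup V] [InnerProductSpace ℝ V] {Φ : ι → V} {W : ι → ℂ}

theorem Xk_eq (hA : A.IsSymm) (hW : ∀ x, (W x).im < 0) (ε : ℝ) (J k : ℕ) (y : ι) :
    Xk Φ A ε J k y W = 2 * ((-(W y).im) * mm A W y) * ∑ x, CX A W Φ ε J k y x := by
  unfold Xk
  rw [Finset.mul_sum]
  refine Finset.sum_congr rfl fun x _ => ?_
  have h3 := c0_ups (Φ := Φ) hA hW ε J k y x
  linarith

theorem CXS_eq (hA : A.IsSymm) (hW : ∀ x, (W x).im < 0) (ε : ℝ) (J : ℕ) (om : ι → ℝ) :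
    CXS Φ A ε J om W = ∑ y, om y * ∑ k ∈ Finset.range (J + 2), Xk Φ A ε J k y W := by
  unfold CXS
  refine Finset.sum_congr rfl fun y _ => ?_
  congr 1
  rw [Finset.sum_congr rfl fun k (_ : k ∈ Finset.range (J + 2)) => Xk_eq hA hW ε J k y,
    ← Finset.mul_sum, Finset.sum_comm]

theorem continuousOn_Xk (hA : A.IsSymm) {ε : ℝ} (hε : 0 < ε) (J k : ℕ) (y : ι) :
    ContinuousOn (Xk Φ A ε J k y) (LH ι) :=
  continuousOn_finset_sum _ fun x _ =>
    (((contDiff_e (n := 0) y).contDiffOn.continuousOn).mul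
      (continuousOn_dUG hA hε J k y x)).sub (contDiffOn_LinU (n := 0) hA hε J k y x).continuousOn

theorem continuousOn_CXS (hA : A.IsSymm) {ε : ℝ} (hε : 0 < ε) (J : ℕ) (om : ι → ℝ) :
    ContinuousOn (CXS Φ A ε J om) (LH ι) := by
  have h : ContinuousOn (fun W => ∑ y, om y * ∑ k ∈ Finset.range (J + 2), Xk Φ A ε J k y W)
      (LH ι) := continuousOn_finset_sum _ fun y _ => continuousOn_const.mul
    (continuousOn_finset_sum _ fun k _ => continuousOn_Xk hA hε J k y)
  exact h.congr fun W hW => CXS_eq hA hW ε J om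

end X

/-- **(SUM), one label configuration** -/
theorem cx_one (hA : A.IsSymm) (m : ι → Measure ℝ) [∀ x, IsProbabilityMeasure (m x)] {R : ℝ}
    (hR : ∀ x, m x (Icc (-R) R)ᶜ = 0) {e : ι → ℝ} (he : ∀ x, 0 < e x)
    (he1 : ∀ x, e x ≤ 1) {om : ι → ℝ} (ho : ∀ x, 0 ≤ om x) (ho1 : ∀ x, om x ≤ 1) {T : ℝ}
    (hT : 0 ≤ T) {J : ℕ} (f : κ → ι → ℝ)
    (ht4 : ∀ x y, ∑ k, (f k x - f k y) ^ 2 ≤ 4 ^ J) {C0 C1 : ℝ} (hC0 : 0 ≤ C0) (hC1 : 0 ≤ C1)
    (hone : ∀ y, om y ≠ 0 → OneC (fam f) A E T J (m y) C0 C1) :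
    -(6 * C0 * Ex m E e (fun W => ∑ v, pr (TT A W) v * Vr (fam f) (TT A W) v) +
      (4 * C1 + 2 * C0 * (T + 2) ^ 2 * ((R + |E|) ^ 2 + 2)) *
        Ex m E e (fun W => ∑ k ∈ Finset.range (J + 2), ∑ y, (om y * e y) *
          ∑ j, Yf A W (kf f J (k + 1) j) y)) ≤
    Ex m E e (CXS (fam f) A (Real.exp (-T)) J om) := by
  have hε : 0 < Real.exp (-T) := Real.exp_pos _
  have hmem : ∀ v, WV E e v ∈ LH ι := fun v => WV_mem_LH he v
  have hneg : ∀ v x, (WV E e v x).im < 0 := fun v x => hmem v x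
  have hie : ∀ v x, -(WV E e v x).im = e x := fun v x => by simp [WV]
  have iC : ∀ {G : (ι → ℂ) → ℝ}, ContinuousOn G (LH ι) →
      Integrable (fun v => G (WV E e v)) (Measure.pi m) :=
    fun {G} hG => integrable_of_continuousOn hG hR he
  -- the functionals
  set Bk : ℕ → ι → (ι → ℂ) → ℝ := fun k y W => C0 * CntK (fam f) A J k y W +
    C1 * YrK (fam f) A J k y W + C0 * ClK (fam f) A (Real.exp (-T)) J k y W with hBk
  have cX : ∀ k y, ContinuousOn (Xk (fam f) A (Real.exp (-T)) J k y) (LH ι) := fun k y =>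
    continuousOn_Xk hA hε J k y
  have cB : ∀ k y, ContinuousOn (Bk k y) (LH ι) := fun k y =>
    ((continuousOn_const.mul (contDiffOn_CntK (n := 0) hA J k y).continuousOn).add
      (continuousOn_const.mul (contDiffOn_YrK (n := 0) hA J k y).continuousOn)).add
      (continuousOn_const.mul (continuousOn_ClK hA hε J k y))
  -- the one-site inequality
  have h1 : ∀ y, om y ≠ 0 → ∀ k ∈ Finset.range (J + 2),
      -Ex m E e (Bk k y) ≤ Ex m E e (Xk (fam f) A (Real.exp (-T)) J k y) := by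
    intro y hy k hk
    rw [Ex_resample (cB k y) hR he y, Ex_resample (cX k y) hR he y, ← integral_neg]
    have i1 := integrable_resample (m := m) y (iC (cB k y))
    have i2 := integrable_resample (m := m) y (iC (cX k y))
    refine integral_mono i1.neg i2 fun v => ?_
    have h2 := hone y hy e v y k he he1 (Finset.mem_range.1 hk)
    have e1 : (∫ t, Xk (fam f) A (Real.exp (-T)) J k y (WV E e (Function.update v y t)) ∂(m y)) =
        ∫ t, 2 * ((-(WV E e (Function.update v y t) y).im) *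
        mm A (WV E e (Function.update v y t)) y) *
        ∑ x, CX A (WV E e (Function.update v y t)) (fam f) (Real.exp (-T)) J k y x ∂(m y) :=
      integral_congr_ae (Eventually.of_forall fun t => Xk_eq hA (hneg _) _ J k y)
    rw [e1]
    exact h2
  -- the sum of the one-site inequalities
  set Sm : (ι → ℂ) → ℝ := fun W => ∑ y, om y * ∑ k ∈ Finset.range (J + 2), Bk k y W with hSm
  have cS : ContinuousOn Sm (LH ι) := continuousOn_finset_sum _ fun y _ =>
    continuousOn_const.mul (continuousOn_finset_sum _ fun k _ => cB k y)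
  have h2 : -Ex m E e Sm ≤ Ex m E e (CXS (fam f) A (Real.exp (-T)) J om) := by
    have e1 : Ex m E e (CXS (fam f) A (Real.exp (-T)) J om) =
        ∑ y, om y * ∑ k ∈ Finset.range (J + 2), Ex m E e (Xk (fam f) A (Real.exp (-T)) J k y) := by
      have e2 : Ex m E e (CXS (fam f) A (Real.exp (-T)) J om) =
          ∫ v, ∑ y, om y * ∑ k ∈ Finset.range (J + 2),
            Xk (fam f) A (Real.exp (-T)) J k y (WV E e v) ∂(Measure.pi m) :=
        integral_congr_ae (Eventually.of_forall fun v => CXS_eq hA (hneg v) _ J om)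
      rw [e2, integral_finset_sum _ fun y _ =>
        (integrable_finset_sum _ fun k _ => iC (cX k y)).const_mul _]
      refine Finset.sum_congr rfl fun y _ => ?_
      rw [integral_const_mul, integral_finset_sum _ fun k _ => iC (cX k y)]
      rfl
    have e3 : Ex m E e Sm = ∑ y, om y * ∑ k ∈ Finset.range (J + 2), Ex m E e (Bk k y) := by
      unfold Ex
      rw [integral_finset_sum _ fun y _ =>
        (integrable_finset_sum _ fun k _ => iC (cB k y)).const_mul _]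
      refine Finset.sum_congr rfl fun y _ => ?_
      rw [integral_const_mul, integral_finset_sum _ fun k _ => iC (cB k y)]
    rw [e1, e3, ← Finset.sum_neg_distrib]
    refine Finset.sum_le_sum fun y _ => ?_
    by_cases hy : om y = 0
    · simp [hy]
    · rw [← mul_neg, ← Finset.sum_neg_distrib]
      exact mul_le_mul_of_nonneg_left (Finset.sum_le_sum fun k hk => h1 y hy k hk) (ho y)
  refine le_trans (neg_le_neg ?_) h2
  -- pointwise bound of `Sm`
  set Dn : (ι → ℂ) → ℝ := fun W => ∑ v, pr (TT A W) v * Vr (fam f) (TT A W) v with hDn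
  set Yt : (ι → ℂ) → ℝ := fun W => ∑ k ∈ Finset.range (J + 2), ∑ y, (om y * e y) *
    ∑ j, Yf A W (kf f J (k + 1) j) y with hYt
  have cD : ContinuousOn Dn (LH ι) := (ContDiffOn.sum fun v _ =>
    (contDiffOn_pr (n := 0) hA v).mul (contDiffOn_Vr hA v)).continuousOn
  have cY : ContinuousOn Yt (LH ι) := (ContDiffOn.sum fun k _ => ContDiffOn.sum fun y _ =>
    contDiffOn_const.mul (ContDiffOn.sum fun j _ =>
      contDiffOn_Yf (n := 0) hA (kf f J (k + 1) j) y)).continuousOn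
  have e4 : 6 * C0 * Ex m E e Dn + (4 * C1 + 2 * C0 * (T + 2) ^ 2 * ((R + |E|) ^ 2 + 2)) *
      Ex m E e Yt = ∫ v, (6 * C0 * Dn (WV E e v) + (4 * C1 + 2 * C0 * (T + 2) ^ 2 *
        ((R + |E|) ^ 2 + 2)) * Yt (WV E e v)) ∂(Measure.pi m) := by
    rw [integral_add ((iC cD).const_mul _) ((iC cY).const_mul _), integral_const_mul,
      integral_const_mul]
    rfl
  rw [e4]
  refine integral_mono_ae (iC cS) (((iC cD).const_mul _).add ((iC cY).const_mul _)) ?_
  filter_upwards [ae_box hR] with v hv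
  have hWv := hneg v
  have hbox : ∀ y, ‖WV E e v y‖ ^ 2 ≤ (R + |E|) ^ 2 + 1 := by
    intro y
    have hy : v y ∈ Icc (-R) R := hv y (mem_univ y)
    have h3 : ‖WV E e v y‖ ^ 2 = (v y - E) ^ 2 + e y ^ 2 := by
      rw [← Complex.normSq_eq_norm_sq, Complex.normSq_apply]
      simp [WV]
      ring
    rw [h3]
    have h4 : |v y - E| ≤ R + |E| :=
      (abs_sub _ _).trans (add_le_add (abs_le.2 ⟨hy.1, hy.2⟩) le_rfl)
    have h5 : (v y - E) ^ 2 ≤ (R + |E|) ^ 2 := by
      rw [← sq_abs]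
      exact pow_le_pow_left₀ (abs_nonneg _) h4 2
    have h6 : e y ^ 2 ≤ 1 := pow_le_one₀ (he y).le (he1 y)
    linarith
  have htt4 : ∀ x y, tt (fam f) x y ≤ 4 ^ J := fun x y => by rw [tt_fam]; exact ht4 x y
  have g1 := sum_CntK_le (Φ := fam f) hA hWv J ho ho1
  have g2 : ∑ y, om y * ∑ k ∈ Finset.range (J + 2), YrK (fam f) A J k y (WV E e v) ≤
      4 * Yt (WV E e v) := by
    have e5 : 4 * Yt (WV E e v) = ∑ y, om y * ∑ k ∈ Finset.range (J + 2),
        4 * ((-(WV E e v y).im) * ∑ j, Yf A (WV E e v) (kf f J (k + 1) j) y) := by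
      simp only [hYt]
      rw [Finset.sum_comm, Finset.mul_sum]
      refine Finset.sum_congr rfl fun y _ => ?_
      rw [Finset.mul_sum, Finset.mul_sum]
      refine Finset.sum_congr rfl fun k _ => ?_
      rw [hie]
      ring
    rw [e5]
    refine Finset.sum_le_sum fun y _ => mul_le_mul_of_nonneg_left ?_ (ho y)
    exact Finset.sum_le_sum fun k _ =>
      YrK_le hA hWv (kf f J (k + 1)) (fun x z => wk_le_kf f J k x z) y
  have g3 : ∑ y, om y * ∑ k ∈ Finset.range (J + 2), ClK (fam f) A (Real.exp (-T)) J k y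
      (WV E e v) ≤ Dn (WV E e v) + 2 * (T + 2) ^ 2 * ((R + |E|) ^ 2 + 2) * Yt (WV E e v) := by
    have e6 : ∑ y, om y * ∑ k ∈ Finset.range (J + 2), ClK (fam f) A (Real.exp (-T)) J k y
        (WV E e v) = ∑ k ∈ Finset.range (J + 2), ∑ y, om y *
          ClK (fam f) A (Real.exp (-T)) J k y (WV E e v) := by
      simp only [Finset.mul_sum]
      rw [Finset.sum_comm]
    have e7 : Dn (WV E e v) + 2 * (T + 2) ^ 2 * ((R + |E|) ^ 2 + 2) * Yt (WV E e v) =
        ∑ k ∈ Finset.range (J + 2), (∑ x, pr (TT A (WV E e v)) x *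
          Pw (fam f) (TT A (WV E e v)) J k x x + 2 * (T + 2) ^ 2 * (((R + |E|) ^ 2 + 1) + 1) *
          ∑ y, om y * ((-(WV E e v y).im) * ∑ j, Yf A (WV E e v) (kf f J (k + 1) j) y)) := by
      rw [Finset.sum_add_distrib, ← Finset.mul_sum]
      congr 1
      · simp only [hDn]
        rw [Finset.sum_comm]
        refine Finset.sum_congr rfl fun x _ => ?_
        rw [← Finset.mul_sum, sum_Pw_self]
      · rw [show ((R + |E|) ^ 2 + 1) + 1 = (R + |E|) ^ 2 + 2 by ring]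
        congr 1
        simp only [hYt]
        refine Finset.sum_congr rfl fun k _ => Finset.sum_congr rfl fun y _ => ?_
        rw [hie]
        ring
    rw [e6, e7]
    exact Finset.sum_le_sum fun k hk => sum_ClK_le hA hWv hT (Finset.mem_range.1 hk) htt4
      (kf f J (k + 1)) (fun x z => wk_le_kf f J k x z) ho ho1 (by positivity)
      (fun y _ => hbox y)
  have e8 : Sm (WV E e v) = C0 * ∑ y, om y * ∑ k ∈ Finset.range (J + 2),
      CntK (fam f) A J k y (WV E e v) + C1 * ∑ y, om y * ∑ k ∈ Finset.range (J + 2),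
      YrK (fam f) A J k y (WV E e v) + C0 * ∑ y, om y * ∑ k ∈ Finset.range (J + 2),
      ClK (fam f) A (Real.exp (-T)) J k y (WV E e v) := by
    simp only [hSm, hBk]
    rw [Finset.mul_sum, Finset.mul_sum, Finset.mul_sum, ← Finset.sum_add_distrib,
      ← Finset.sum_add_distrib]
    refine Finset.sum_congr rfl fun y _ => ?_
    rw [Finset.sum_add_distrib, Finset.sum_add_distrib, ← Finset.mul_sum, ← Finset.mul_sum,
      ← Finset.mul_sum]
    ring
  rw [e8]
  have k1 := mul_le_mul_of_nonneg_left g1 hC0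
  have k2 := mul_le_mul_of_nonneg_left g2 hC1
  have k3 := mul_le_mul_of_nonneg_left g3 hC0
  have e9 : Dn (WV E e v) = ∑ x, pr (TT A (WV E e v)) x * Vr (fam f) (TT A (WV E e v)) x := rfl
  rw [← e9] at k1
  calc _ ≤ C0 * (5 * Dn (WV E e v)) + C1 * (4 * Yt (WV E e v)) +
        C0 * (Dn (WV E e v) + 2 * (T + 2) ^ 2 * ((R + |E|) ^ 2 + 2) * Yt (WV E e v)) := by
        linarith
    _ = _ := by ring

/-- **(SUM), average over the labels** -/
theorem cx_avg (hA : A.IsSymm) [∀ k, IsProbabilityMeasure (ν k)] (hp : ∀ k, 0 ≤ p k) {R : ℝ}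
    (hR : ∀ k, ν k (Icc (-R) R)ᶜ = 0) (hu : ∀ l x, 0 < u l x) (hw : ∀ l x, 0 ≤ w l x)
    (huw : ∀ l x, u l x + w l x ≤ 1) {T : ℝ} (hT : 0 ≤ T) {J : ℕ} (f : κ → ι → ℝ)
    (ht4 : ∀ x y, ∑ k, (f k x - f k y) ^ 2 ≤ 4 ^ J) {C0 C1 : ℝ} (hC0 : 0 ≤ C0) (hC1 : 0 ≤ C1)
    (hone : ∀ l y, w l y ≠ 0 → OneC (fam f) A E T J (ν (l y)) C0 C1) {τ : ℝ} (hτ : 0 ≤ τ) :
    -(6 * C0 * PhiG A p ν E f (eT u w τ) +
      (4 * C1 + 2 * C0 * (T + 2) ^ 2 * ((R + |E|) ^ 2 + 2)) *
        ∑ k ∈ Finset.range (J + 2), YG A p ν E (kf f J (k + 1)) (eT u w τ) (wT w τ)) ≤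
    AvG p ν E (eT u w τ) fun l => CXS (fam f) A (Real.exp (-T)) J (omT u w τ l) := by
  have he : ∀ l x, 0 < eT u w τ l x := eT_pos' hu hw τ
  have he1 : ∀ l x, eT u w τ l x ≤ 1 := by
    intro l x
    have h1 : Real.exp (-τ) * w l x ≤ w l x :=
      mul_le_of_le_one_left (hw l x) (Real.exp_le_one_iff.2 (by linarith))
    unfold eT
    linarith [huw l x]
  have hom : ∀ l y, omT u w τ l y ≠ 0 → w l y ≠ 0 := by
    intro l y h h0
    apply h
    unfold omT wT
    simp [h0]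
  have hP : ∀ l : ι → Λ, 0 ≤ ∏ x, p (l x) := fun l => Finset.prod_nonneg fun x _ => hp _
  have h1 : ∀ l : ι → Λ, (∏ x, p (l x)) *
      (-(6 * C0 * Ex (fun x => ν (l x)) E (eT u w τ l)
          (fun W => ∑ v, pr (TT A W) v * Vr (fam f) (TT A W) v) +
        (4 * C1 + 2 * C0 * (T + 2) ^ 2 * ((R + |E|) ^ 2 + 2)) *
        Ex (fun x => ν (l x)) E (eT u w τ l) (fun W => ∑ k ∈ Finset.range (J + 2),
          ∑ y, (omT u w τ l y * eT u w τ l y) * ∑ j, Yf A W (kf f J (k + 1) j) y))) ≤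
      (∏ x, p (l x)) * Ex (fun x => ν (l x)) E (eT u w τ l)
        (CXS (fam f) A (Real.exp (-T)) J (omT u w τ l)) := fun l =>
    mul_le_mul_of_nonneg_left (cx_one (E := E) hA (fun x => ν (l x)) (fun x => hR (l x)) (he l)
      (he1 l) (omT_nonneg hu hw τ l) (omT_le_one hu hw τ l) hT f ht4 hC0 hC1
      fun y hy => hone l y (hom l y hy)) (hP l)
  refine le_trans (le_of_eq ?_) (Finset.sum_le_sum fun l (_ : l ∈ Finset.univ) => h1 l)
  have eD : PhiG A p ν E f (eT u w τ) = ∑ l : ι → Λ, (∏ x, p (l x)) *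
      Ex (fun x => ν (l x)) E (eT u w τ l)
        (fun W => ∑ v, pr (TT A W) v * Vr (fam f) (TT A W) v) := by
    unfold PhiG AvG Ex
    refine Finset.sum_congr rfl fun l _ => ?_
    congr 1
    refine integral_congr_ae (Eventually.of_forall fun v => ?_)
    exact (P365T2.H844.sum_pr_Vr_fam hA (fun x => WV_mem_LH (he l) v x) f).symm
  have eY : ∑ k ∈ Finset.range (J + 2), YG A p ν E (kf f J (k + 1)) (eT u w τ) (wT w τ) =
      ∑ l : ι → Λ, (∏ x, p (l x)) * Ex (fun x => ν (l x)) E (eT u w τ l)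
        (fun W => ∑ k ∈ Finset.range (J + 2),
          ∑ y, (omT u w τ l y * eT u w τ l y) * ∑ j, Yf A W (kf f J (k + 1) j) y) := by
    unfold YG
    rw [Finset.sum_comm]
    refine Finset.sum_congr rfl fun l _ => ?_
    rw [← Finset.mul_sum]
    congr 1
    have iY : ∀ (g : ι → ℝ) (y : ι), Integrable (fun v => Yf A (WV E (eT u w τ l) v) g y)
        (Measure.pi fun x => ν (l x)) := fun g y =>
      integrable_of_continuousOn (contDiffOn_Yf (n := 0) hA g y).continuousOn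
        (fun x => hR (l x)) (he l)
    unfold Ex
    rw [integral_finset_sum _ fun k _ => integrable_finset_sum _ fun y _ =>
      (integrable_finset_sum _ fun j _ => iY _ y).const_mul _]
    refine Finset.sum_congr rfl fun k _ => ?_
    rw [integral_finset_sum _ fun y _ => (integrable_finset_sum _ fun j _ => iY _ y).const_mul _]
    refine Finset.sum_congr rfl fun y _ => ?_
    rw [integral_const_mul, integral_finset_sum _ fun j _ => iY _ y, omT_mul hu hw]
  rw [eD, eY, Finset.mul_sum, Finset.mul_sum, ← Finset.sum_add_distrib,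
    ← Finset.sum_neg_distrib]
  refine Finset.sum_congr rfl fun l _ => ?_
  ring

end flow

end P365T2.H16S
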