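import Vale.Agent.P365.T2.H16.CXLow16
import Vale.Agent.P365.T2.H216.Core

/-!
# P365 T2 / H16 / UPart16: row U of the X side from the one-site inequality (centre route)
-/

set_option linter.all false

namespace P365T2.H16S

/-- **row U** from 37's one-site inequality -/
theorem uPart_of_oneCAll {lam E C1 : ℝ} (hC1 : 0 < C1) (h : OneCAll lam E) :
    P365T2.H912.UPart lam E C1 (P365T2.H831.EnF C1 E) (P365T2.H831.LossFn C1 E)
      (P365T2.H831.PosF C1 E) :=
  P365T2.H216.uPart_of_CXLow hC1 (cxLow_of h)

end P365T2.H16S
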